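import Vale.Agent.P040.Lab.Defs

/-!
# Every wall has exactly two end vertices (helper8)

For a wall `(c, Q)` with normal `n` put `a j = dot n (v j)`, `β j = dot (crs (v c) n) (v j)` and
`ρ j = β j / a j` (`j ≠ c`).  Then `a b * β j - β b * a j = |n|² det3 (v c) (v b) (v j)`, so the
ends of the wall are the vertices on the lines of the argmin and of the argmax of `ρ`.
-/

namespace Vale.Agent.P040.Lab8

open Finset Vale.Agent.P040.Lab

variable {ι : Type*} [Fintype ι] [DecidableEq ι] {v : ι → V3} {k : ℕ}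

theorem key_id (n u w x : V3) (h : dot n u = 0) :
    dot n w * dot (crs u n) x - dot (crs u n) w * dot n x = dot n n * det3 u w x := by
  obtain ⟨n1, n2, n3⟩ := n
  obtain ⟨u1, u2, u3⟩ := u
  obtain ⟨w1, w2, w3⟩ := w
  obtain ⟨x1, x2, x3⟩ := x
  simp only [dot, crs, det3] at *
  linear_combination (-(n1 * (w2 * x3 - w3 * x2) + n2 * (w3 * x1 - w1 * x3)
    + n3 * (w1 * x2 - w2 * x1))) * h

theorem det3_swap12 (a b c : V3) : det3 b a c = - det3 a b c := by
  simp only [det3, dot, crs]; ring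

theorem det3_self1 (a b : V3) : det3 a b a = 0 := by
  simp only [det3, dot, crs]; ring

theorem det3_self2 (a b : V3) : det3 a b b = 0 := by
  simp only [det3, dot, crs]; ring

theorem dot_self_pos_of {n w : V3} (h : dot n w ≠ 0) : 0 < dot n n := by
  obtain ⟨n1, n2, n3⟩ := n
  obtain ⟨w1, w2, w3⟩ := w
  simp only [dot] at *
  by_contra hcon
  have h0 : n1 * n1 + n2 * n2 + n3 * n3 ≤ 0 := not_lt.mp hcon
  have h1 : n1 * n1 = 0 := by
    nlinarith [mul_self_nonneg n1, mul_self_nonneg n2, mul_self_nonneg n3]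
  have h2 : n2 * n2 = 0 := by
    nlinarith [mul_self_nonneg n1, mul_self_nonneg n2, mul_self_nonneg n3]
  have h3 : n3 * n3 = 0 := by
    nlinarith [mul_self_nonneg n1, mul_self_nonneg n2, mul_self_nonneg n3]
  rw [mul_self_eq_zero] at h1 h2 h3
  apply h
  rw [h1, h2, h3]; ring

theorem notMem_posV_1 (y : ι × ι) : y.1 ∉ posV v y := by
  simp [posV, det3_self1]

theorem notMem_posV_2 (y : ι × ι) : y.2 ∉ posV v y := by
  simp [posV, det3_self2]

theorem e1_eq_iff {c : ι} {Q : Finset ι} (hQ : Q.card = k) (y : ι × ι) :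
    (LevelV v k y ∧ e1 v k y = (c, Q)) ↔ (y.1 ≠ y.2 ∧ y.1 = c ∧ posV v y = Q.erase y.2) := by
  have h2 := notMem_posV_2 (v := v) y
  constructor
  · rintro ⟨⟨hne, hl⟩, he⟩
    unfold e1 at he
    rw [Prod.mk.injEq] at he
    obtain ⟨h1, he⟩ := he
    refine ⟨hne, h1, ?_⟩
    split_ifs at he with hk
    · rw [← he, Finset.erase_eq_of_notMem h2]
    · rw [← he, Finset.erase_insert h2]
  · rintro ⟨hne, h1, hP⟩
    by_cases hb : y.2 ∈ Q
    · have hcard : (posV v y).card + 1 = k := by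
        rw [hP, Finset.card_erase_of_mem hb, hQ]
        have := Finset.card_pos.mpr ⟨_, hb⟩
        omega
      refine ⟨⟨hne, Or.inr hcard⟩, ?_⟩
      unfold e1
      rw [if_neg (by omega), hP, Finset.insert_erase hb, h1]
    · have hPQ : posV v y = Q := by rw [hP, Finset.erase_eq_of_notMem hb]
      refine ⟨⟨hne, Or.inl (by rw [hPQ, hQ])⟩, ?_⟩
      unfold e1
      rw [if_pos (by rw [hPQ, hQ]), hPQ, h1]

theorem e2_eq_iff {c : ι} {Q : Finset ι} (hQ : Q.card = k) (y : ι × ι) :
    (LevelV v k y ∧ e2 v k y = (c, Q)) ↔ (y.1 ≠ y.2 ∧ y.2 = c ∧ posV v y = Q.erase y.1) := by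
  have h2 := notMem_posV_1 (v := v) y
  constructor
  · rintro ⟨⟨hne, hl⟩, he⟩
    unfold e2 at he
    rw [Prod.mk.injEq] at he
    obtain ⟨h1, he⟩ := he
    refine ⟨hne, h1, ?_⟩
    split_ifs at he with hk
    · rw [← he, Finset.erase_eq_of_notMem h2]
    · rw [← he, Finset.erase_insert h2]
  · rintro ⟨hne, h1, hP⟩
    by_cases hb : y.1 ∈ Q
    · have hcard : (posV v y).card + 1 = k := by
        rw [hP, Finset.card_erase_of_mem hb, hQ]
        have := Finset.card_pos.mpr ⟨_, hb⟩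
        omega
      refine ⟨⟨hne, Or.inr hcard⟩, ?_⟩
      unfold e2
      rw [if_neg (by omega), hP, Finset.insert_erase hb, h1]
    · have hPQ : posV v y = Q := by rw [hP, Finset.erase_eq_of_notMem hb]
      refine ⟨⟨hne, Or.inl (by rw [hPQ, hQ])⟩, ?_⟩
      unfold e2
      rw [if_pos (by rw [hPQ, hQ]), hPQ, h1]

theorem sign_aux {A t d N : ℝ} (hN : 0 < N) (hA : A ≠ 0) (ht : t ≠ 0) (h : N * d = A * t) :
    ((0 < d ↔ 0 < A) ↔ 0 < t) := by
  have hdet : 0 < d ↔ 0 < A * t := by
    rw [← h]; exact (mul_pos_iff_of_pos_left hN).symm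
  rw [hdet]
  constructor
  · intro h1
    by_contra hneg
    have ht' : t < 0 := lt_of_le_of_ne (not_lt.mp hneg) ht
    rcases lt_or_gt_of_ne hA with h2 | h2
    · have h3 : 0 < A * t := mul_pos_of_neg_of_neg h2 ht'
      exact absurd (h1.mp h3) (not_lt.mpr h2.le)
    · have h3 : A * t < 0 := mul_neg_of_pos_of_neg h2 ht'
      exact absurd (h1.mpr h2) (not_lt.mpr h3.le)
  · intro h1
    constructor
    · intro h2
      exact (pos_iff_pos_of_mul_pos h2).mpr h1
    · intro h2
      exact mul_pos h2 h1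

/-- Every wall has exactly two end vertices. -/
theorem card_ends (hv : GenPos v) (hc : Fintype.card ι = 2 * k + 1) (hk : 0 < k)
    {x : ι × Finset ι} (hx : Wall v k x) : (ends v k x).card = 2 := by
  obtain ⟨c, Q⟩ := x
  obtain ⟨hQ, n, hn0, hcQ, hpos, hneg⟩ := hx
  simp only at hQ hn0 hcQ hpos hneg
  have ha : ∀ j, j ≠ c → dot n (v j) ≠ 0 := by
    intro j hj
    by_cases hjQ : j ∈ Q
    · exact (hpos j hjQ).ne'
    · exact (hneg j hj hjQ).ne
  have haQ : ∀ j, j ≠ c → (0 < dot n (v j) ↔ j ∈ Q) := by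
    intro j hj
    constructor
    · intro h
      by_contra hjQ
      exact absurd (hneg j hj hjQ) (not_lt.mpr h.le)
    · exact hpos j
  obtain ⟨q0, hq0⟩ : Q.Nonempty := Finset.card_pos.mp (by omega)
  have hq0c : q0 ≠ c := fun h => hcQ (h ▸ hq0)
  have hnn : 0 < dot n n := dot_self_pos_of (ha q0 hq0c)
  obtain ⟨ρ, hρ⟩ : ∃ ρ : ι → ℝ, ∀ j, ρ j = dot (crs (v c) n) (v j) / dot n (v j) := ⟨_, fun _ => rfl⟩
  have hsign : ∀ b j, b ≠ c → j ≠ c →
      dot n n * det3 (v c) (v b) (v j) = dot n (v j) * (dot n (v b) * (ρ j - ρ b)) := by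
    intro b j hb hj
    rw [← key_id n (v c) (v b) (v j) hn0, hρ, hρ]
    have h1 := ha b hb
    have h2 := ha j hj
    field_simp
  have hinj : ∀ b j, b ≠ c → j ≠ c → b ≠ j → ρ j - ρ b ≠ 0 := by
    intro b j hb hj hbj h
    have h1 := hsign b j hb hj
    rw [h, mul_zero, mul_zero] at h1
    rcases mul_eq_zero.mp h1 with h2 | h2
    · exact hnn.ne' h2
    · exact hv c b j hb.symm hj.symm hbj h2
  have hT : ∀ b j, b ≠ c → j ≠ c → b ≠ j →
      ((0 < det3 (v c) (v b) (v j) ↔ j ∈ Q) ↔ 0 < dot n (v b) * (ρ j - ρ b)) := by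
    intro b j hb hj hbj
    rw [← haQ j hj]
    exact sign_aux hnn (ha j hj) (mul_ne_zero (ha b hb) (hinj b j hb hj hbj)) (hsign b j hb hj)
  have hT' : ∀ b j, b ≠ c → j ≠ c → b ≠ j →
      ((0 < det3 (v b) (v c) (v j) ↔ j ∈ Q) ↔ dot n (v b) * (ρ j - ρ b) < 0) := by
    intro b j hb hj hbj
    rw [← haQ j hj, ← neg_pos]
    refine sign_aux hnn (ha j hj)
      (neg_ne_zero.mpr (mul_ne_zero (ha b hb) (hinj b j hb hj hbj))) ?_
    rw [det3_swap12, mul_neg, hsign b j hb hj, mul_neg]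
  have hP1 : ∀ b, b ≠ c → (posV v (c, b) = Q.erase b ↔
      ∀ j, j ≠ c → j ≠ b → 0 < dot n (v b) * (ρ j - ρ b)) := by
    intro b hb
    constructor
    · intro h j hj hjb
      have h1 : (0 < det3 (v c) (v b) (v j)) ↔ j ∈ Q := by
        have h2 : j ∈ posV v (c, b) ↔ j ∈ Q.erase b := by rw [h]
        simpa [posV, hjb] using h2
      exact (hT b j hb hj (Ne.symm hjb)).mp h1
    · intro h
      ext j
      by_cases hj : j = c
      · subst hj
        simp [posV, det3_self1, hcQ]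
      by_cases hjb : j = b
      · subst hjb
        simp [posV, det3_self2]
      · have h1 := (hT b j hb hj (Ne.symm hjb)).mpr (h j hj hjb)
        simpa [posV, hjb] using h1
  have hP2 : ∀ b, b ≠ c → (posV v (b, c) = Q.erase b ↔
      ∀ j, j ≠ c → j ≠ b → dot n (v b) * (ρ j - ρ b) < 0) := by
    intro b hb
    constructor
    · intro h j hj hjb
      have h1 : (0 < det3 (v b) (v c) (v j)) ↔ j ∈ Q := by
        have h2 : j ∈ posV v (b, c) ↔ j ∈ Q.erase b := by rw [h]
        simpa [posV, hjb] using h2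
      exact (hT' b j hb hj (Ne.symm hjb)).mp h1
    · intro h
      ext j
      by_cases hj : j = c
      · subst hj
        simp [posV, det3_self2, hcQ]
      by_cases hjb : j = b
      · subst hjb
        simp [posV, det3_self1]
      · have h1 := (hT' b j hb hj (Ne.symm hjb)).mpr (h j hj hjb)
        simpa [posV, hjb] using h1
  -- argmin and argmax
  have hS : (univ.erase c).Nonempty := ⟨q0, by simp [hq0c]⟩
  obtain ⟨bm, hbm, hmin⟩ := (univ.erase c).exists_min_image ρ hS
  obtain ⟨bM, hbM, hmax⟩ := (univ.erase c).exists_max_image ρ hS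
  have hbmc : bm ≠ c := (Finset.mem_erase.mp hbm).1
  have hbMc : bM ≠ c := (Finset.mem_erase.mp hbM).1
  have hmin' : ∀ j, j ≠ c → j ≠ bm → 0 < ρ j - ρ bm := by
    intro j hj hjb
    have h1 := hmin j (by simp [hj])
    have h2 := hinj bm j hbmc hj (Ne.symm hjb)
    rcases lt_or_gt_of_ne h2 with h3 | h3
    · linarith
    · exact h3
  have hmax' : ∀ j, j ≠ c → j ≠ bM → ρ j - ρ bM < 0 := by
    intro j hj hjb
    have h1 := hmax j (by simp [hj])
    have h2 := hinj bM j hbMc hj (Ne.symm hjb)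
    rcases lt_or_gt_of_ne h2 with h3 | h3
    · exact h3
    · linarith
  have hmM : bm ≠ bM := by
    intro h
    have hcard : 1 < (univ.erase c).card := by
      rw [Finset.card_erase_of_mem (mem_univ c), Finset.card_univ, hc]; omega
    obtain ⟨p, hp, q, hq, hpq⟩ := Finset.one_lt_card.mp hcard
    have hpc : p ≠ c := (Finset.mem_erase.mp hp).1
    have hqc : q ≠ c := (Finset.mem_erase.mp hq).1
    by_cases hpb : p = bm
    · have hqb : q ≠ bm := fun h' => hpq (hpb.trans h'.symm)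
      have h1 := hmin' q hqc hqb
      have h2 := hmax' q hqc (h ▸ hqb)
      rw [← h] at h2
      linarith
    · have h1 := hmin' p hpc hpb
      have h2 := hmax' p hpc (h ▸ hpb)
      rw [← h] at h2
      linarith
  have hE1 : ∀ b, b ≠ c → ((∀ j, j ≠ c → j ≠ b → 0 < dot n (v b) * (ρ j - ρ b)) ↔
      ((0 < dot n (v b) ∧ b = bm) ∨ (dot n (v b) < 0 ∧ b = bM))) := by
    intro b hb
    constructor
    · intro h
      rcases lt_or_gt_of_ne (ha b hb) with h1 | h1
      · right
        refine ⟨h1, ?_⟩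
        by_contra hne
        have h2 := h bM hbMc (Ne.symm hne)
        have h3 := hmax' b hb hne
        nlinarith
      · left
        refine ⟨h1, ?_⟩
        by_contra hne
        have h2 := h bm hbmc (Ne.symm hne)
        have h3 := hmin' b hb hne
        nlinarith
    · rintro (⟨h1, h2⟩ | ⟨h1, h2⟩) j hj hjb
      · rw [h2] at h1 hjb ⊢
        exact mul_pos h1 (hmin' j hj hjb)
      · rw [h2] at h1 hjb ⊢
        exact mul_pos_of_neg_of_neg h1 (hmax' j hj hjb)
  have hE2 : ∀ b, b ≠ c → ((∀ j, j ≠ c → j ≠ b → dot n (v b) * (ρ j - ρ b) < 0) ↔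
      ((0 < dot n (v b) ∧ b = bM) ∨ (dot n (v b) < 0 ∧ b = bm))) := by
    intro b hb
    constructor
    · intro h
      rcases lt_or_gt_of_ne (ha b hb) with h1 | h1
      · right
        refine ⟨h1, ?_⟩
        by_contra hne
        have h2 := h bm hbmc (Ne.symm hne)
        have h3 := hmin' b hb hne
        nlinarith
      · left
        refine ⟨h1, ?_⟩
        by_contra hne
        have h2 := h bM hbMc (Ne.symm hne)
        have h3 := hmax' b hb hne
        nlinarith
    · rintro (⟨h1, h2⟩ | ⟨h1, h2⟩) j hj hjb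
      · rw [h2] at h1 hjb ⊢
        exact mul_neg_of_pos_of_neg h1 (hmax' j hj hjb)
      · rw [h2] at h1 hjb ⊢
        exact mul_neg_of_neg_of_pos h1 (hmin' j hj hjb)
  have hends : ends v k (c, Q) =
      {(if 0 < dot n (v bm) then (c, bm) else (bm, c)),
        (if 0 < dot n (v bM) then (bM, c) else (c, bM))} := by
    ext y
    obtain ⟨y1, y2⟩ := y
    simp only [ends, mem_filter, mem_univ, true_and, mem_insert, mem_singleton]
    rw [and_or_left, e1_eq_iff hQ, e2_eq_iff hQ]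
    simp only
    constructor
    · rintro (⟨hne, h1, hP⟩ | ⟨hne, h1, hP⟩)
      · rw [h1] at hne hP ⊢
        rcases (hE1 y2 hne.symm).mp ((hP1 y2 hne.symm).mp hP) with ⟨h2, h3⟩ | ⟨h2, h3⟩
        · left; rw [← h3, if_pos h2]
        · right; rw [← h3, if_neg (not_lt.mpr h2.le)]
      · rw [h1] at hne hP ⊢
        rcases (hE2 y1 hne).mp ((hP2 y1 hne).mp hP) with ⟨h2, h3⟩ | ⟨h2, h3⟩
        · right; rw [← h3, if_pos h2]
        · left; rw [← h3, if_neg (not_lt.mpr h2.le)]
    · rintro (h | h)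
      · split_ifs at h with h1
        · rw [Prod.mk.injEq] at h
          rw [h.1, h.2]
          left
          exact ⟨hbmc.symm, rfl, (hP1 bm hbmc).mpr ((hE1 bm hbmc).mpr (Or.inl ⟨h1, rfl⟩))⟩
        · rw [Prod.mk.injEq] at h
          rw [h.1, h.2]
          right
          have h2 : dot n (v bm) < 0 := lt_of_le_of_ne (not_lt.mp h1) (ha bm hbmc)
          exact ⟨hbmc, rfl, (hP2 bm hbmc).mpr ((hE2 bm hbmc).mpr (Or.inr ⟨h2, rfl⟩))⟩
      · split_ifs at h with h1
        · rw [Prod.mk.injEq] at h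
          rw [h.1, h.2]
          right
          exact ⟨hbMc, rfl, (hP2 bM hbMc).mpr ((hE2 bM hbMc).mpr (Or.inl ⟨h1, rfl⟩))⟩
        · rw [Prod.mk.injEq] at h
          rw [h.1, h.2]
          left
          have h2 : dot n (v bM) < 0 := lt_of_le_of_ne (not_lt.mp h1) (ha bM hbMc)
          exact ⟨hbMc.symm, rfl, (hP1 bM hbMc).mpr ((hE1 bM hbMc).mpr (Or.inr ⟨h2, rfl⟩))⟩
  rw [hends]
  apply Finset.card_pair
  split_ifs <;> simp [Prod.mk.injEq, hmM, hbmc, hbMc, hbmc.symm, hbMc.symm]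

end Vale.Agent.P040.Lab8
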